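import Mathlib

/-!
# P224, large dimension: the polynomial inequalities behind the two barriers
-/

namespace Vale.Agent.P224.Gap.Window

/-- The barrier for the defect, in the variable `z = L / ν`. -/
noncomputable def barE (z : ℝ) : ℝ := 47 / 100 * z ^ 2 - 106 / 100 * z ^ 3 + 6 / 10 * z ^ 4

noncomputable def barE1 (z : ℝ) : ℝ := 94 / 100 * z - 318 / 100 * z ^ 2 + 24 / 10 * z ^ 3

noncomputable def barE2 (z : ℝ) : ℝ := 94 / 100 - 636 / 100 * z + 72 / 10 * z ^ 2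

/-- The barrier for the profile of the volume. -/
noncomputable def barT (z : ℝ) : ℝ := 233 / 1000 * z - 265 / 1000 * z ^ 2 + 26 / 300 * z ^ 3

noncomputable def barT1 (z : ℝ) : ℝ := 233 / 1000 - 53 / 100 * z + 26 / 100 * z ^ 2

noncomputable def barT2 (z : ℝ) : ℝ := -(53 / 100) + 52 / 100 * z

theorem affine_nonneg {a b c s t s₁ t₁ : ℝ} (hs : 0 ≤ s) (hs₁ : s ≤ s₁) (ht : 0 ≤ t)
    (ht₁ : t ≤ t₁) (h00 : 0 ≤ a) (h10 : 0 ≤ a + b * s₁) (h01 : 0 ≤ a + c * t₁)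
    (h11 : 0 ≤ a + b * s₁ + c * t₁) : 0 ≤ a + b * s + c * t := by
  rcases le_total 0 b with hb | hb <;> rcases le_total 0 c with hc | hc
  · nlinarith [mul_nonneg hb hs, mul_nonneg hc ht]
  · nlinarith [mul_nonneg hb hs, mul_le_mul_of_nonpos_left ht₁ hc]
  · nlinarith [mul_le_mul_of_nonpos_left hs₁ hb, mul_nonneg hc ht]
  · nlinarith [mul_le_mul_of_nonpos_left hs₁ hb, mul_le_mul_of_nonpos_left ht₁ hc]

theorem source_antitone {z α : ℝ} (hz1 : z ≤ 1 / 2) (hα0 : 0 ≤ α) (hα : α ≤ z) :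
    (1 - 100 / 99 * z - 1 / 10 ^ 6) * (1 - z - 7 / 25 * z)
      ≤ (1 - 100 / 99 * α - 1 / 10 ^ 6) * (1 - α - 7 / 25 * z) - (1 + 1 / 20) * (z - α) / 2 := by
  nlinarith [mul_nonneg (sub_nonneg.2 hα) (show 0 ≤ 1 / 2 - z by linarith),
    mul_nonneg (sub_nonneg.2 hα) (show 0 ≤ z - α by linarith),
    mul_nonneg (sub_nonneg.2 hα) hα0]

theorem quartic_nonneg {z k₁ k₂ k₃ k₄ : ℝ} (hz : 0 ≤ z) (hz1 : z ≤ 1 / 2) (h3 : k₃ ≤ 0)
    (h4 : k₄ ≤ 0) (hA : k₁ ^ 2 ≤ 4 * (19 / 1000) * (k₂ + k₃ / 4 + k₄ / 16))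
    (hA0 : 0 < k₂ + k₃ / 4 + k₄ / 16)
    (hB : 0 ≤ 19 / 1000 + k₁ / 4 + (k₂ + k₃ * (3 / 8) + k₄ * (9 / 64)) / 16)
    (hB1 : 0 ≤ k₁ + (k₂ + k₃ * (3 / 8) + k₄ * (9 / 64)) / 2)
    (hC : 0 ≤ 19 / 1000 + k₁ * (3 / 8) + (k₂ + k₃ / 2 + k₄ / 4) * (9 / 64))
    (hC1 : 0 ≤ k₁ + (k₂ + k₃ / 2 + k₄ / 4) * (3 / 4)) (hC2 : 0 ≤ k₂ + k₃ / 2 + k₄ / 4) :
    0 ≤ 19 / 1000 + k₁ * z + k₂ * z ^ 2 + k₃ * z ^ 3 + k₄ * z ^ 4 := by
  have key : ∀ u, z ≤ u → 19 / 1000 + k₁ * z + (k₂ + k₃ * u + k₄ * u ^ 2) * z ^ 2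
      ≤ 19 / 1000 + k₁ * z + k₂ * z ^ 2 + k₃ * z ^ 3 + k₄ * z ^ 4 := fun u hu => by
    have h1 : k₃ * u ≤ k₃ * z := mul_le_mul_of_nonpos_left hu h3
    have h2 : k₄ * u ^ 2 ≤ k₄ * z ^ 2 :=
      mul_le_mul_of_nonpos_left (pow_le_pow_left₀ hz hu 2) h4
    nlinarith [mul_le_mul_of_nonneg_right (add_le_add h1 h2) (sq_nonneg z)]
  rcases le_total z (1 / 4) with h | h
  · refine le_trans ?_ (key _ h)
    have : 0 ≤ (k₂ + k₃ * (1 / 4) + k₄ * (1 / 4) ^ 2)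
        * (19 / 1000 + k₁ * z + (k₂ + k₃ * (1 / 4) + k₄ * (1 / 4) ^ 2) * z ^ 2) := by
      nlinarith [sq_nonneg (2 * (k₂ + k₃ / 4 + k₄ / 16) * z + k₁)]
    exact nonneg_of_mul_nonneg_right this (by linarith)
  rcases le_total z (3 / 8) with h' | h'
  · refine le_trans ?_ (key _ h')
    have hp : 0 ≤ k₂ + k₃ * (3 / 8) + k₄ * (3 / 8) ^ 2 := by nlinarith
    nlinarith [mul_nonneg hp (sq_nonneg (z - 1 / 4)), mul_nonneg hB1 (sub_nonneg.2 h)]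
  · refine le_trans ?_ (key _ hz1)
    nlinarith [mul_nonneg hC2 (sq_nonneg (z - 3 / 8)), mul_nonneg hC1 (sub_nonneg.2 h')]

theorem corners {z : ℝ} (hz : 0 ≤ z) (hz1 : z ≤ 1 / 2) :
    let a := 2 * ((1 - 100 / 99 * z - 1 / 10 ^ 6) * (1 - z - 7 / 25 * z)
        - 1 / 20 - 30 / 7 * (1 / 20) * z / 4)
      - (2 * (94 / 100 - 318 / 100 * z + 24 / 10 * z ^ 2)
        + 30 / 7 * (47 / 100 * z - 106 / 100 * z ^ 2 + 6 / 10 * z ^ 3))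
    let b := -(2 * (94 / 100 - 318 / 100 * z + 24 / 10 * z ^ 2) + 2 * (1 / 20))
    let c := 282 / 100 - 1272 / 100 * z + 12 * z ^ 2
    0 ≤ a ∧ 0 ≤ a + b * (z ^ 2 / 8) ∧ 0 ≤ a + c * (z / 100) ∧
      0 ≤ a + b * (z ^ 2 / 8) + c * (z / 100) := by
  intro a b c
  have g1 := quartic_nonneg (k₁ := -(342 / 1000)) (k₂ := 2328 / 1000) (k₃ := -(2572 / 1000))
    (k₄ := 0) hz hz1
  have g2 := quartic_nonneg (k₁ := -(342 / 1000)) (k₂ := 2081 / 1000) (k₃ := -(1777 / 1000))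
    (k₄ := -(6 / 10)) hz hz1
  have g3 := quartic_nonneg (k₁ := -(314 / 1000)) (k₂ := 2201 / 1000) (k₃ := -(2452 / 1000))
    (k₄ := 0) hz hz1
  have g4 := quartic_nonneg (k₁ := -(314 / 1000)) (k₂ := 1954 / 1000) (k₃ := -(1657 / 1000))
    (k₄ := -(6 / 10)) hz hz1
  norm_num at g1 g2 g3 g4
  simp only [a, b, c]
  refine ⟨?_, ?_, ?_, ?_⟩ <;> nlinarith [sq_nonneg z, pow_nonneg hz 3, pow_nonneg hz 4]

theorem poly_E {z α q w : ℝ} (hz : 0 < z) (hz1 : z ≤ 1 / 2) (hα0 : 0 ≤ α) (hα : α ≤ z) (hq : 1 ≤ q)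
    (hq1 : q ≤ 1 + z ^ 2 / 8) (hw : 0 ≤ w) (hw1 : w ≤ z / 100) :
    barE1 z * (2 * q - 2 * w) - z * w * barE2 z + 30 / 7 * barE z
      ≤ 2 * z * ((1 - 100 / 99 * α - 1 / 10 ^ 6) * (1 - α - 7 / 25 * z)
          - (1 + 1 / 20) * (z - α) / 2 - q * (1 / 20) - 30 / 7 * (1 / 20) * z / 4) := by
  have hS := mul_le_mul_of_nonneg_left (source_antitone hz1 hα0 hα) (show 0 ≤ 2 * z by linarith)
  set d := (1 - 100 / 99 * z - 1 / 10 ^ 6) * (1 - z - 7 / 25 * z) with hd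
  set a := 2 * (d - 1 / 20 - 30 / 7 * (1 / 20) * z / 4)
    - (2 * (94 / 100 - 318 / 100 * z + 24 / 10 * z ^ 2)
      + 30 / 7 * (47 / 100 * z - 106 / 100 * z ^ 2 + 6 / 10 * z ^ 3)) with ha
  set b := -(2 * (94 / 100 - 318 / 100 * z + 24 / 10 * z ^ 2) + 2 * (1 / 20)) with hb
  set c := 282 / 100 - 1272 / 100 * z + 12 * z ^ 2 with hc
  have hy : (0 : ℝ) ≤ 1 / 2 - z := by linarith
  have h : 0 ≤ a + b * (q - 1) + c * w := by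
    obtain ⟨g1, g2, g3, g4⟩ := corners hz.le hz1
    exact affine_nonneg (sub_nonneg.2 hq) (show q - 1 ≤ z ^ 2 / 8 by linarith) hw hw1
      g1 g2 g3 g4
  have h2 : 0 ≤ z * (a + b * (q - 1) + c * w) := mul_nonneg hz.le h
  have e : z * (a + b * (q - 1) + c * w)
      = 2 * z * (d - q * (1 / 20) - 30 / 7 * (1 / 20) * z / 4)
        - (barE1 z * (2 * q - 2 * w) - z * w * barE2 z + 30 / 7 * barE z) := by
    simp only [ha, hb, hc, barE, barE1, barE2]; ring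
  nlinarith

theorem poly_T {z q w : ℝ} (hz : 0 < z) (hz1 : z ≤ 1 / 2) (hq : 1 ≤ q)
    (hq1 : q ≤ 1 + z ^ 2 / 8) (hw : 0 ≤ w) (hw1 : w ≤ z / 100) :
    z ^ 2 * (barT1 z * (2 * q - 2 * w) - z * w * barT2 z) ≤ barE z := by
  set a := 47 / 100 - 106 / 100 * z + 6 / 10 * z ^ 2 - 2 * barT1 z with ha
  set b := -(2 * barT1 z) with hb
  set c := 2 * barT1 z + z * barT2 z with hc
  have hy : (0 : ℝ) ≤ 1 / 2 - z := by linarith
  have h : 0 ≤ a + b * (q - 1) + c * w := by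
    refine affine_nonneg (sub_nonneg.2 hq) (show q - 1 ≤ z ^ 2 / 8 by linarith) hw hw1 ?_ ?_ ?_ ?_
    all_goals
      simp only [ha, hb, hc, barT1, barT2]
      nlinarith [sq_nonneg z, mul_nonneg hz.le hy, mul_nonneg (mul_nonneg hz.le hy) hy,
        mul_nonneg (mul_nonneg hz.le hz.le) hy, mul_nonneg (mul_nonneg hz.le hz.le) hz.le]
  have h2 : 0 ≤ z ^ 2 * (a + b * (q - 1) + c * w) := mul_nonneg (sq_nonneg z) h
  have e : z ^ 2 * (a + b * (q - 1) + c * w)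
      = barE z - z ^ 2 * (barT1 z * (2 * q - 2 * w) - z * w * barT2 z) := by
    simp only [ha, hb, hc, barE]; ring
  linarith

end Vale.Agent.P224.Gap.Window
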