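import Vale.Agent.P224.Window.Profiles
import Vale.Agent.P224.Window.Poly
import Vale.Agent.P224.Gap.Main

/-!
# P224: the gap `Vol ≥ (1 + 1/20) |S^m|` for `m ≥ 100`
-/

namespace Vale.Agent.P224.Gap

open MeasureTheory Filter Topology
open scoped ContDiff

namespace Window

/-- The boundary layer. -/
noncomputable def layer (K ν : ℝ) : ℝ := Real.exp (-(ν - K))

theorem hasDerivAt_layer (K ν : ℝ) : HasDerivAt (layer K) (-layer K ν) ν := by
  exact (((hasDerivAt_id' ν).sub_const K).fun_neg.exp).congr_deriv (by simp [layer])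

theorem tendsto_layer (K : ℝ) : Tendsto (layer K) atTop (𝓝 0) :=
  Real.tendsto_exp_neg_atTop_nhds_zero.comp (tendsto_atTop_add_const_right _ _ tendsto_id)

theorem layer_pos (K ν : ℝ) : 0 < layer K ν := Real.exp_pos _

theorem layer_self (K : ℝ) : layer K K = 1 := by simp [layer]

theorem layer_le {K ν c : ℝ} {n : ℕ} (h : (n : ℝ) ≤ ν - K) (hc : 1 ≤ c * 2 ^ n) :
    layer K ν ≤ c := by
  have h1 : (2 : ℝ) ^ n ≤ Real.exp (ν - K) := by
    refine le_trans ?_ (Real.exp_le_exp.2 h)
    rw [← mul_one (n : ℝ), Real.exp_nat_mul]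
    exact pow_le_pow_left₀ (by norm_num) (by linarith [Real.add_one_le_exp (1 : ℝ)]) n
  rw [layer, Real.exp_neg, inv_le_iff_one_le_mul₀ (Real.exp_pos _)]
  have hc0 : 0 ≤ c := nonneg_of_mul_nonneg_left (zero_le_one.trans hc) (by positivity)
  nlinarith [mul_le_mul_of_nonneg_left h1 hc0]

theorem hasDerivAt_div_var (L : ℝ) {ν : ℝ} (hν : 0 < ν) :
    HasDerivAt (fun y => L / y) (-(L / ν ^ 2)) ν := by
  simpa [div_eq_mul_inv] using (hasDerivAt_inv hν.ne').const_mul L

theorem hasDerivAt_barE (z : ℝ) : HasDerivAt barE (barE1 z) z := by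
  refine ((((hasDerivAt_pow 2 z).const_mul (47 / 100 : ℝ)).fun_sub
    ((hasDerivAt_pow 3 z).const_mul (106 / 100))).fun_add
    ((hasDerivAt_pow 4 z).const_mul (6 / 10))).congr_deriv ?_
  simp only [barE1]; ring

theorem hasDerivAt_barE1 (z : ℝ) : HasDerivAt barE1 (barE2 z) z := by
  refine ((((hasDerivAt_id' z).const_mul (94 / 100 : ℝ)).fun_sub
    ((hasDerivAt_pow 2 z).const_mul (318 / 100))).fun_add
    ((hasDerivAt_pow 3 z).const_mul (24 / 10))).congr_deriv ?_
  simp only [barE2]; ring

theorem hasDerivAt_barT (z : ℝ) : HasDerivAt barT (barT1 z) z := by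
  refine ((((hasDerivAt_id' z).const_mul (233 / 1000 : ℝ)).fun_sub
    ((hasDerivAt_pow 2 z).const_mul (265 / 1000))).fun_add
    ((hasDerivAt_pow 3 z).const_mul (26 / 300))).congr_deriv ?_
  simp only [barT1]; ring

theorem hasDerivAt_barT1 (z : ℝ) : HasDerivAt barT1 (barT2 z) z := by
  refine ((((hasDerivAt_id' z).const_mul (53 / 100 : ℝ)).const_sub (233 / 1000 : ℝ)).fun_add
    ((hasDerivAt_pow 2 z).const_mul (26 / 100))).congr_deriv ?_
  simp only [barT2]; ring

/-- Derivative of `c f(L/ν)`. -/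
theorem hasDerivAt_scaled {f f₁ : ℝ → ℝ} (hf : ∀ z, HasDerivAt f (f₁ z) z) (L c : ℝ) {ν : ℝ}
    (hν : 0 < ν) : HasDerivAt (fun y => c * f (L / y)) (c * f₁ (L / ν) * -(L / ν ^ 2)) ν :=
  (((hf (L / ν)).comp ν (hasDerivAt_div_var L hν)).const_mul c).congr_deriv (by ring)

/-- Second derivative of `c f(L/ν)`. -/
theorem hasDerivAt_scaled' {f₁ f₂ : ℝ → ℝ} (hf : ∀ z, HasDerivAt f₁ (f₂ z) z) (L c : ℝ) {ν : ℝ}
    (hν : 0 < ν) : HasDerivAt (fun y => c * f₁ (L / y) * -(L / y ^ 2))
      (c * f₂ (L / ν) * (L ^ 2 / ν ^ 4) + c * f₁ (L / ν) * (2 * L / ν ^ 3)) ν := by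
  have h2 : HasDerivAt (fun y => -(L / y ^ 2)) (2 * L / ν ^ 3) ν := by
    refine ((hasDerivAt_const ν L).fun_div (hasDerivAt_pow 2 ν)
      (pow_ne_zero 2 hν.ne')).fun_neg.congr_deriv ?_
    field_simp
    ring
  refine ((hasDerivAt_scaled hf L c hν).fun_mul h2).congr_deriv ?_
  field_simp

theorem tendsto_scaled {f f₁ : ℝ → ℝ} (hf : ∀ z, HasDerivAt f (f₁ z) z) (L : ℝ) :
    Tendsto (fun y => f (L / y)) atTop (𝓝 (f 0)) :=
  (hf 0).continuousAt.tendsto.comp (tendsto_id.const_div_atTop L)

end Window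

namespace MinimalImmersion

variable {m : ℕ} {M : Type} [TopologicalSpace M] [MeasurableSpace M] [CompactSpace M] [BorelSpace M]
  (S : MinimalImmersion m M)

/-- A point of maximal curvature with an almost constant profile of the volume, large dimension. -/
structure Large (S : MinimalImmersion m M) (p : Fin (m + 2) → ℝ) (L : ℝ) : Prop where
  hundred_le : 100 ≤ m
  m_le : (m : ℝ) ≤ L
  unit_p : ∑ i, p i * p i = 1
  max_le : ∀ x, S.sffSq x ≤ L
  one_le : ∀ l, 0 ≤ l → S.profile p (fun _ => (1 : ℝ)) l ≤ 1 + 1 / 20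
  le_one : ∀ l, 0 ≤ l → 1 ≤ S.profile p (fun _ => (1 : ℝ)) l
  lim_one : Tendsto (S.profile p fun _ => (1 : ℝ)) atTop (𝓝 1)
  lim_sff : Tendsto (S.profile p S.sffSq) atTop (𝓝 L)
  lim_defect : Tendsto (S.profile p fun x => S.nrmL p x ^ 2) atTop (𝓝 0)

variable {S} {p : Fin (m + 2) → ℝ} {L : ℝ}

omit [CompactSpace M] [BorelSpace M] in
theorem Large.two_le (N : S.Large p L) : 2 ≤ m := le_trans (by norm_num) N.hundred_le

omit [CompactSpace M] [BorelSpace M] in
theorem Large.hundred_le_L (N : S.Large p L) : (100 : ℝ) ≤ L :=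
  le_trans (by exact_mod_cast N.hundred_le) N.m_le

theorem Large.hasDerivAt_profile (N : S.Large p L) {φ : M → ℝ} (hφ : S.Smooth φ) {ν : ℝ}
    (hν : 0 < ν) : HasDerivAt (S.profile p φ) (-S.drop p φ ν) ν :=
  S.wronskian p N.unit_p hφ N.two_le hν

theorem Large.hasDerivAt_profile' (N : S.Large p L) {φ : M → ℝ} (hφ : S.Smooth φ) {ν : ℝ}
    (hν : 0 < ν) : HasDerivAt (fun y => -S.drop p φ y)
      (-(S.opVal p φ ν - 2 * Window.rate m ν * S.drop p φ ν)) ν :=
  (S.drop_hasDerivAt p N.two_le hφ hν).fun_neg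

theorem Large.sff_ge (N : S.Large p L) {ν : ℝ} (hν : 2 * L ≤ ν) :
    L * (1 - 100 / 99 * ((L - m) / ν) - 1 / 10 ^ 6) ≤ S.profile p S.sffSq ν := by
  have hL := N.hundred_le_L
  have hm := N.m_le
  set K := 9 / 5 * L with hK
  set β := 100 / 99 * (L - m) with hβ
  have hβ0 : 0 ≤ β := by simp only [hβ]; nlinarith
  have h := Window.comparison (K := K) (l := 0) (b := fun y => 2 * Window.rate m y)
    (p := fun y => 2 * (L - m) / y ^ 2)
    (X := fun y => S.profile p S.sffSq y + (L * β * y⁻¹ - L) + L * Window.layer K y)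
    (X' := fun y => -S.drop p S.sffSq y + L * β * -(y ^ 2)⁻¹ + L * -Window.layer K y)
    (X'' := fun y => -(S.opVal p S.sffSq y - 2 * Window.rate m y * S.drop p S.sffSq y)
      + L * β * (2 / y ^ 3) + L * Window.layer K y)
    ?_ ?_ ?_ le_rfl ?_ ?_ ?_ ?_ (x := ν) (by linarith)
  · have hν0 : 0 < ν := by linarith
    have hl : Window.layer K ν ≤ 1 / 10 ^ 6 :=
      Window.layer_le (n := 20) (by push_cast; linarith) (by norm_num)
    have hl' := mul_le_mul_of_nonneg_left hl (show 0 ≤ L by linarith)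
    have e : L * β * ν⁻¹ = L * (100 / 99 * ((L - m) / ν)) := by simp only [hβ]; ring
    linarith
  · intro y hy
    have hy0 : 0 < y := by linarith
    exact ((N.hasDerivAt_profile S.smooth_sffSq hy0).fun_add
      (((hasDerivAt_inv hy0.ne').const_mul (L * β)).sub_const L)).fun_add
      ((Window.hasDerivAt_layer K y).const_mul L)
  · intro y hy
    have hy0 : 0 < y := by linarith
    refine ((N.hasDerivAt_profile' S.smooth_sffSq hy0).fun_add
      ((((hasDerivAt_pow 2 y).fun_inv (pow_ne_zero 2 hy0.ne')).fun_neg).const_mul (L * β))).fun_add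
      (((Window.hasDerivAt_layer K y).fun_neg).const_mul L) |>.congr_deriv ?_
    field_simp
    ring
  · have h0 : 0 ≤ S.profile p S.sffSq K := S.profile_nonneg p S.sffSq_nonneg K
    have h1 : 0 ≤ L * β * K⁻¹ := by
      have : (0 : ℝ) < K := by linarith
      positivity
    simp only [Window.layer_self]
    linarith
  · have h1 := (N.lim_sff.add ((tendsto_inv_atTop_zero.const_mul (L * β)).sub_const L)).add
      ((Window.tendsto_layer K).const_mul L)
    simpa using h1
  · intro y hy
    have : 0 ≤ L - m := by linarith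
    positivity
  · intro y hy
    linarith [Window.one_le_rate N.two_le (show 0 < y by linarith)]
  · intro y hy
    have hy0 : 0 < y := by linarith
    have hq := Window.one_le_rate N.two_le hy0
    have hop := S.opVal_sff p N.two_le N.max_le hy0
    have hw : 0 < Window.layer K y := Window.layer_pos K y
    have hD : 0 ≤ L - m := by linarith
    set q := Window.rate m y
    have h2 : 0 ≤ L * Window.layer K y * (2 * q - 1 + 2 * (L - m) / y ^ 2) := by
      refine mul_nonneg (by positivity) ?_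
      have : 0 ≤ 2 * (L - m) / y ^ 2 := by positivity
      linarith
    have h3 : 0 ≤ L / y ^ 2 * (2 * β * q - 2 * (L - m) - 2 * β / y + 2 * (L - m) * β / y) := by
      refine mul_nonneg (by positivity) ?_
      have h4 : 2 * β / y ≤ 2 * β / 100 := by
        refine div_le_div_of_nonneg_left (by positivity) (by norm_num) ?_
        linarith
      have h5 : 0 ≤ 2 * (L - m) * β / y := by positivity
      have h6 : 2 * β * 1 ≤ 2 * β * q := mul_le_mul_of_nonneg_left hq (by positivity)
      simp only [hβ] at *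
      linarith
    refine le_of_le_of_eq (add_nonneg (add_nonneg hop h2) h3) ?_
    field_simp
    ring

theorem Large.defect_ge (N : S.Large p L) {ν : ℝ} (hν : 2 * L ≤ ν) :
    1 / L * Window.barE (L / ν) - 29 / 1000 / L * Window.layer (2 * L) ν
      ≤ S.profile p (fun x => S.nrmL p x ^ 2) ν := by
  have hL := N.hundred_le_L
  have hm := N.m_le
  have hL0 : 0 < L := by linarith
  have sf := S.smooth_sq (S.smooth_nrmL p)
  set E := S.profile p fun x => S.nrmL p x ^ 2 with hE
  set T := S.profile p fun _ => (1 : ℝ) with hT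
  set dE := S.drop p fun x => S.nrmL p x ^ 2 with hdE
  set d1 := S.drop p fun _ => (1 : ℝ) with hd1
  set M₀ := 29 / 1000 / L with hM₀
  have hM : 0 ≤ M₀ := by positivity
  have h := Window.comparison (K := 2 * L) (l := 0) (b := fun y => 2 * Window.rate m y)
    (p := fun y => 30 / 7 * L / y ^ 2)
    (X := fun y => E y - L / 2 * (y ^ 2)⁻¹ * (T y - 1) - 1 / L * Window.barE (L / y)
      + M₀ * Window.layer (2 * L) y)
    (X' := fun y => -dE y - (-(L / y ^ 3) * (T y - 1) + L / 2 * (y ^ 2)⁻¹ * -d1 y)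
      - 1 / L * Window.barE1 (L / y) * -(L / y ^ 2) + M₀ * -Window.layer (2 * L) y)
    (X'' := fun y => -(S.opVal p (fun x => S.nrmL p x ^ 2) y - 2 * Window.rate m y * dE y)
      - (3 * L / y ^ 4 * (T y - 1) + 2 * (-(L / y ^ 3) * -d1 y)
        + L / 2 * (y ^ 2)⁻¹ * -(E y - 2 * Window.rate m y * d1 y))
      - (1 / L * Window.barE2 (L / y) * (L ^ 2 / y ^ 4)
        + 1 / L * Window.barE1 (L / y) * (2 * L / y ^ 3))
      + M₀ * Window.layer (2 * L) y)
    ?_ ?_ ?_ le_rfl ?_ ?_ ?_ ?_ (x := ν) hν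
  · have hν0 : 0 < ν := by linarith
    have h1 : 0 ≤ L / 2 * (ν ^ 2)⁻¹ * (T ν - 1) :=
      mul_nonneg (by positivity) (sub_nonneg.2 (N.le_one ν hν0.le))
    linarith
  · intro y hy
    have hy0 : 0 < y := by linarith
    have hg : HasDerivAt (fun y => L / 2 * (y ^ 2)⁻¹) (-(L / y ^ 3)) y := by
      refine (((hasDerivAt_pow 2 y).fun_inv (pow_ne_zero 2 hy0.ne')).const_mul (L / 2)).congr_deriv ?_
      field_simp
      ring
    exact (((N.hasDerivAt_profile sf hy0).fun_sub
      (hg.fun_mul ((N.hasDerivAt_profile (S.smooth_const 1) hy0).sub_const 1))).fun_sub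
      (Window.hasDerivAt_scaled Window.hasDerivAt_barE L (1 / L) hy0)).fun_add
      ((Window.hasDerivAt_layer _ y).const_mul M₀)
  · intro y hy
    have hy0 : 0 < y := by linarith
    have hg : HasDerivAt (fun y => L / 2 * (y ^ 2)⁻¹) (-(L / y ^ 3)) y := by
      refine (((hasDerivAt_pow 2 y).fun_inv (pow_ne_zero 2 hy0.ne')).const_mul (L / 2)).congr_deriv ?_
      field_simp
      ring
    have hg' : HasDerivAt (fun y => -(L / y ^ 3)) (3 * L / y ^ 4) y := by
      refine ((hasDerivAt_const y L).fun_div (hasDerivAt_pow 3 y)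
        (pow_ne_zero 3 hy0.ne')).fun_neg.congr_deriv ?_
      field_simp
      ring
    refine ((((N.hasDerivAt_profile' sf hy0).fun_sub
      ((hg'.fun_mul ((N.hasDerivAt_profile (S.smooth_const 1) hy0).sub_const 1)).fun_add
        (hg.fun_mul (N.hasDerivAt_profile' (S.smooth_const 1) hy0)))).fun_sub
      (Window.hasDerivAt_scaled' Window.hasDerivAt_barE1 L (1 / L) hy0)).fun_add
      ((Window.hasDerivAt_layer _ y).fun_neg.const_mul M₀)).congr_deriv ?_
    rw [S.opVal_one p N.two_le hy0]
    simp only [hE, hT, hdE, hd1]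
    ring
  · have h0 : 0 ≤ E (2 * L) := S.profile_nonneg p (fun x => sq_nonneg _) _
    have e : L / (2 * L) = 1 / 2 := by field_simp
    simp only [Window.layer_self, e, Window.barE]
    have h1 := N.one_le (2 * L) (by linarith)
    have h2 : L / 2 * ((2 * L) ^ 2)⁻¹ * (T (2 * L) - 1) ≤ L / 2 * ((2 * L) ^ 2)⁻¹ * (1 / 20) :=
      mul_le_mul_of_nonneg_left (by linarith) (by positivity)
    have e2 : L / 2 * ((2 * L) ^ 2)⁻¹ * (1 / 20) = 1 / 160 / L := by field_simp; ring
    have h3 : (1 / 160 + 225 / 10000) / L ≤ M₀ :=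
      div_le_div_of_nonneg_right (by norm_num) hL0.le
    rw [add_div] at h3
    have e3 : 1 / L * (47 / 100 * (1 / 2) ^ 2 - 106 / 100 * (1 / 2) ^ 3 + 6 / 10 * (1 / 2) ^ 4)
        = 225 / 10000 / L := by ring
    linarith
  · have h1 := ((N.lim_defect.sub (((tendsto_pow_atTop two_ne_zero).inv_tendsto_atTop.const_mul
      (L / 2)).mul (N.lim_one.sub_const 1))).sub
      ((Window.tendsto_scaled Window.hasDerivAt_barE L).const_mul (1 / L))).add
      ((Window.tendsto_layer (2 * L)).const_mul M₀)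
    simpa [Window.barE] using h1
  · intro y hy
    positivity
  · intro y hy
    linarith [Window.one_le_rate N.two_le (show 0 < y by linarith)]
  · intro y hy
    have hy0 : 0 < y := by linarith
    have hm0 : (0 : ℝ) ≤ m := Nat.cast_nonneg m
    set q := Window.rate m y with hqdef
    set r := Window.equatorDeriv m y / equatorIntegral m y with hr
    have hq : 1 ≤ q := Window.one_le_rate N.two_le hy0
    set z := L / y with hz
    set α := (L - m) / y with hα
    have hz0 : 0 < z := by positivity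
    have hz1 : z ≤ 1 / 2 := by rw [hz, div_le_iff₀ hy0]; linarith
    have hα0 : 0 ≤ α := div_nonneg (by linarith) hy0.le
    have hαz : α ≤ z := div_le_div_of_nonneg_right (by linarith) hy0.le
    have hμ : z - α = (m : ℝ) / y := by simp only [hz, hα]; ring
    have hq1 : q ≤ 1 + z ^ 2 / 8 := by
      refine (Window.rate_le N.two_le hy0).trans ?_
      have : (m : ℝ) / y ≤ z := div_le_div_of_nonneg_right hm hy0.le
      have h0 : 0 ≤ (m : ℝ) / y := by positivity
      nlinarith [pow_le_pow_left₀ h0 this 2]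
    have hw1 : 1 / y ≤ z / 100 := by
      rw [hz, div_div, div_le_div_iff₀ hy0 (by positivity)]; nlinarith
    have hpoly := Window.poly_E hz0 hz1 hα0 hαz hq hq1 (by positivity) hw1
    have hdef := S.opVal_defect p N.unit_p N.two_le hL0.le N.max_le hy0
    rw [← hr, ← hz, ← hα] at hdef
    have hA := N.sff_ge hy.le
    rw [← hα] at hA
    have hT1 : 1 ≤ T y := N.le_one y hy0.le
    have hT2 : T y ≤ 1 + 1 / 20 := N.one_le y hy0.le
    have hK0 : 0 ≤ 1 - α - 7 / 25 * z := by linarith
    have h1 := mul_le_mul_of_nonneg_right hA hK0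
    have h2 : (1 - r) * T y ≤ (z - α) / 2 * (1 + 1 / 20) := by
      have hr1 : 1 - r ≤ (z - α) / 2 := by
        have : q = r + (m : ℝ) / y / 2 := rfl
        rw [hμ]; linarith
      exact (mul_le_mul_of_nonneg_right hr1 (by linarith)).trans
        (mul_le_mul_of_nonneg_left hT2 (by linarith))
    have h2' := mul_le_mul_of_nonneg_left h2 hL0.le
    have h3 : q * (T y - 1) ≤ q * (1 / 20) := mul_le_mul_of_nonneg_left (by linarith) (by linarith)
    have h4 : 30 / 7 * z * (T y - 1) ≤ 30 / 7 * z * (1 / 20) :=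
      mul_le_mul_of_nonneg_left (by linarith) (by positivity)
    set k := 2 / y ^ 3 with hk
    have hk0 : 0 ≤ k := by positivity
    set Sv := (1 - 100 / 99 * α - 1 / 10 ^ 6) * (1 - α - 7 / 25 * z)
      - (1 + 1 / 20) * (z - α) / 2 - q * (1 / 20) - 30 / 7 * (1 / 20) * z / 4 with hSv
    have h5 : k * L * Sv ≤ k * (S.profile p S.sffSq y * (1 - α - 7 / 25 * z) - L * ((1 - r) * T y))
        - k * L * q * (T y - 1) - k * L * (30 / 7) * z / 4 * (T y - 1) := by
      have h3' := mul_le_mul_of_nonneg_left h3 hL0.le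
      have h4' := mul_le_mul_of_nonneg_left h4 hL0.le
      have h6 : L * Sv ≤ (S.profile p S.sffSq y * (1 - α - 7 / 25 * z) - L * ((1 - r) * T y))
          - L * q * (T y - 1) - L * (30 / 7) * z / 4 * (T y - 1) := by
        simp only [hSv]; linarith
      have := mul_le_mul_of_nonneg_left h6 hk0
      linarith
    have h6 : 1 / y ^ 2 * (Window.barE1 z * (2 * q - 2 * (1 / y)) - z * (1 / y) * Window.barE2 z
        + 30 / 7 * Window.barE z) ≤ k * L * Sv := by
      refine (mul_le_mul_of_nonneg_left hpoly (by positivity)).trans_eq ?_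
      simp only [hk, hz]; field_simp
    have h7 : 0 ≤ 3 * L / y ^ 4 * (T y - 1) := mul_nonneg (by positivity) (by linarith)
    have h8 : 0 ≤ M₀ * Window.layer (2 * L) y * (2 * q - 1 + 30 / 7 * L / y ^ 2) := by
      refine mul_nonneg (mul_nonneg hM (Window.layer_pos _ _).le) ?_
      have : 0 ≤ 30 / 7 * L / y ^ 2 := by positivity
      linarith
    have hsum : 0 ≤ (S.opVal p (fun x => S.nrmL p x ^ 2) y
          - (k * (S.profile p S.sffSq y * (1 - α - 7 / 25 * z) - L * ((1 - r) * T y + d1 y))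
            - 53 / 14 * L / y ^ 2 * E y))
        + (k * (S.profile p S.sffSq y * (1 - α - 7 / 25 * z) - L * ((1 - r) * T y))
            - k * L * q * (T y - 1) - k * L * (30 / 7) * z / 4 * (T y - 1)
          - 1 / y ^ 2 * (Window.barE1 z * (2 * q - 2 * (1 / y)) - z * (1 / y) * Window.barE2 z
            + 30 / 7 * Window.barE z))
        + 3 * L / y ^ 4 * (T y - 1)
        + M₀ * Window.layer (2 * L) y * (2 * q - 1 + 30 / 7 * L / y ^ 2) := by
      linarith
    refine hsum.trans_eq ?_
    simp only [hk, hz]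
    field_simp
    ring

theorem Large.false_of (N : S.Large p L) : False := by
  have hL := N.hundred_le_L
  have hL0 : 0 < L := by linarith
  set T := S.profile p fun _ => (1 : ℝ) with hT
  have h := Window.comparison (K := 2 * L) (l := 0) (b := fun y => 2 * Window.rate m y)
    (p := fun _ => 0)
    (X := fun y => T y - 1 - 1 * Window.barT (L / y) + 7 / 100 * Window.layer (2 * L) y)
    (X' := fun y => -S.drop p (fun _ => 1) y - 1 * Window.barT1 (L / y) * -(L / y ^ 2)
      + 7 / 100 * -Window.layer (2 * L) y)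
    (X'' := fun y => -(S.opVal p (fun _ => 1) y - 2 * Window.rate m y * S.drop p (fun _ => 1) y)
      - (1 * Window.barT2 (L / y) * (L ^ 2 / y ^ 4) + 1 * Window.barT1 (L / y) * (2 * L / y ^ 3))
      + 7 / 100 * Window.layer (2 * L) y)
    ?_ ?_ ?_ le_rfl ?_ ?_ ?_ ?_ (x := 20 / 9 * L) (by linarith)
  · have e : L / (20 / 9 * L) = 9 / 20 := by field_simp
    have hl : Window.layer (2 * L) (20 / 9 * L) ≤ 1 / 1000 :=
      Window.layer_le (n := 10) (by push_cast; linarith) (by norm_num)
    have h1 := N.one_le (20 / 9 * L) (by linarith)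
    simp only [e, Window.barT] at h
    linarith
  · intro y hy
    have hy0 : 0 < y := by linarith
    exact (((N.hasDerivAt_profile (S.smooth_const 1) hy0).sub_const 1).fun_sub
      (Window.hasDerivAt_scaled Window.hasDerivAt_barT L 1 hy0)).fun_add
      ((Window.hasDerivAt_layer _ y).const_mul _)
  · intro y hy
    have hy0 : 0 < y := by linarith
    exact (((N.hasDerivAt_profile' (S.smooth_const 1) hy0).fun_sub
      (Window.hasDerivAt_scaled' Window.hasDerivAt_barT1 L 1 hy0)).fun_add
      ((Window.hasDerivAt_layer _ y).fun_neg.const_mul _)).congr_deriv (by ring)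
  · have e : L / (2 * L) = 1 / 2 := by field_simp
    have h1 := N.le_one (2 * L) (by linarith)
    simp only [Window.layer_self, e, Window.barT]
    linarith
  · have h1 := (((N.lim_one.sub_const 1).sub
      ((Window.tendsto_scaled Window.hasDerivAt_barT L).const_mul 1)).add
      ((Window.tendsto_layer (2 * L)).const_mul (7 / 100)))
    simpa [Window.barT] using h1
  · intro y _
    exact le_rfl
  · intro y hy
    linarith [Window.one_le_rate N.two_le (show 0 < y by linarith)]
  · intro y hy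
    have hy0 : 0 < y := by linarith
    set q := Window.rate m y with hqdef
    have hq : 1 ≤ q := Window.one_le_rate N.two_le hy0
    set z := L / y with hz
    have hz0 : 0 < z := by positivity
    have hz1 : z ≤ 1 / 2 := by rw [hz, div_le_iff₀ hy0]; linarith
    have hq1 : q ≤ 1 + z ^ 2 / 8 := by
      refine (Window.rate_le N.two_le hy0).trans ?_
      have : (m : ℝ) / y ≤ z := div_le_div_of_nonneg_right N.m_le hy0.le
      have h0 : 0 ≤ (m : ℝ) / y := by positivity
      nlinarith [pow_le_pow_left₀ h0 this 2]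
    have hw1 : 1 / y ≤ z / 100 := by
      rw [hz, div_div, div_le_div_iff₀ hy0 (by positivity)]; nlinarith
    have hpoly := mul_le_mul_of_nonneg_left (Window.poly_T hz0 hz1 hq hq1 (by positivity) hw1)
      (show 0 ≤ 1 / L by positivity)
    have hd := N.defect_ge hy.le
    rw [← hz, ← S.opVal_one p N.two_le hy0] at hd
    have hw := Window.layer_pos (2 * L) y
    have h29 : 29 / 1000 / L ≤ 7 / 100 := by rw [div_le_iff₀ hL0]; linarith
    have h8 : 29 / 1000 / L * Window.layer (2 * L) y
        ≤ 7 / 100 * Window.layer (2 * L) y * (2 * q - 1) := by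
      calc _ ≤ 7 / 100 * Window.layer (2 * L) y := mul_le_mul_of_nonneg_right h29 hw.le
        _ ≤ _ := le_mul_of_one_le_right (by positivity) (by linarith)
    have hsum : 0 ≤ S.opVal p (fun _ => 1) y
        - 1 / L * (z ^ 2 * (Window.barT1 z * (2 * q - 2 * (1 / y))
          - z * (1 / y) * Window.barT2 z))
        + 7 / 100 * Window.layer (2 * L) y * (2 * q - 1) := by linarith
    refine hsum.trans_eq ?_
    simp only [hz]
    field_simp
    ring

variable (S)

open scoped Classical in
/-- The gap in large dimension. -/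
theorem gap_large (hm : 100 ≤ m) (hnt : S.NotTotallyGeodesic) :
    (1 + 1 / 20) * sphereArea m ≤ (S.vol Set.univ).toReal := by
  have := S.finite_vol
  have hm2 : 2 ≤ m := le_trans (by norm_num) hm
  obtain ⟨z, hz⟩ := hnt
  obtain ⟨x₀, -, hx₀⟩ := isCompact_univ.exists_isMaxOn ⟨z, Set.mem_univ z⟩
    (S.cont S.smooth_sffSq).continuousOn
  have hmax : ∀ x, S.sffSq x ≤ S.sffSq x₀ := fun x => hx₀ (Set.mem_univ x)
  have hp : ∑ i, (S.pos x₀) i * (S.pos x₀) i = 1 := S.pos_pos x₀
  have P0 : S.profile (S.pos x₀) (fun _ => (1 : ℝ)) 0 = (S.vol Set.univ).toReal / sphereArea m := by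
    simp [profile, pairing, equatorIntegral_zero (show 1 ≤ m by omega), Measure.real]
  have hanti := S.profile_one_antitone (S.pos x₀) hm2 hp
  by_contra hcon
  push Not at hcon
  have hθ : S.profile (S.pos x₀) (fun _ => (1 : ℝ)) 0 ≤ 1 + 1 / 20 := by
    rw [P0, div_le_iff₀ (sphereArea_pos m)]
    linarith
  have P1le : ∀ l, 0 ≤ l → S.profile (S.pos x₀) (fun _ => (1 : ℝ)) l ≤ 1 + 1 / 20 := fun l hl =>
    (hanti Set.self_mem_Ici hl hl).trans hθ
  have hsub : ({x₀, S.flip x₀} : Finset M) ⊆ (S.fibre_finite x₀).toFinset := by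
    intro x hx
    simp only [Finset.mem_insert, Finset.mem_singleton] at hx
    rcases hx with rfl | rfl <;> simp [S.pos_flip]
  have hone' : Tendsto (S.profile (S.pos x₀) fun _ => (1 : ℝ)) atTop
      (𝓝 ((1 / 2) * ((S.fibre_finite x₀).toFinset.card : ℝ))) := by
    have := S.laplace_limit x₀ (fun _ => 1) continuous_const
    rw [Finset.sum_const, nsmul_eq_mul, mul_one] at this
    exact this
  have hcard : ((S.fibre_finite x₀).toFinset.card : ℝ) < ((3 : ℕ) : ℝ) := by
    have := le_of_tendsto hone' (eventually_atTop.2 ⟨0, P1le⟩)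
    push_cast
    linarith
  have hfib : (S.fibre_finite x₀).toFinset = {x₀, S.flip x₀} := by
    refine (Finset.eq_of_subset_of_card_le hsub ?_).symm
    rw [Finset.card_pair (S.flip_ne x₀).symm]
    exact Nat.lt_succ_iff.1 (Nat.cast_lt.1 hcard)
  have lim2 := fun (φ : M → ℝ) (hφ : Continuous φ) => tendsto_profile_pair hfib hφ
  have hone : Tendsto (S.profile (S.pos x₀) fun _ => (1 : ℝ)) atTop (𝓝 1) := by
    convert lim2 (fun _ => 1) continuous_const using 2; norm_num
  have P1ge : ∀ l, 0 ≤ l → 1 ≤ S.profile (S.pos x₀) (fun _ => (1 : ℝ)) l := fun l hl =>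
    le_of_tendsto hone (eventually_atTop.2 ⟨l, fun y hy => hanti hl (hl.trans hy : (0:ℝ) ≤ y) hy⟩)
  have g0 : S.nrmL (S.pos x₀) x₀ = 0 := S.nrm_pos x₀
  have g1 : S.nrmL (S.pos x₀) (S.flip x₀) = 0 := by
    simp only [nrmL, S.nrm_flip, Pi.neg_apply, neg_mul, Finset.sum_neg_distrib]
    rw [show ∑ i, S.nrm x₀ i * S.pos x₀ i = 0 from S.nrm_pos x₀, neg_zero]
  refine Large.false_of (S := S) (p := S.pos x₀) (L := S.sffSq x₀)
    ⟨hm, S.le_max_sffSq hm2 hmax hz, hp, hmax, P1le, P1ge, hone, ?_, ?_⟩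
  · convert lim2 _ (S.cont S.smooth_sffSq) using 2; rw [S.sffSq_flip]; ring
  · convert lim2 _ (S.cont (S.smooth_sq (S.smooth_nrmL (S.pos x₀)))) using 2; simp [g0, g1]

end MinimalImmersion

end Vale.Agent.P224.Gap
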