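import Vale.Agent.P224.Gap.Compare

/-!
# P224, large dimension: the moment identity for the squared gradient of the height of the normal
-/

namespace Vale.Agent.P224.Gap

open MeasureTheory Filter Topology
open scoped ContDiff

namespace MinimalImmersion

variable {m : ℕ} {M : Type} [TopologicalSpace M] [MeasurableSpace M] (S : MinimalImmersion m M)

/-- `tr B³`. -/
def sff3 (x : M) : ℝ := ∑ i, ∑ l, S.sff i l x * S.sff2 i l x

theorem smooth_sff3 : S.Smooth S.sff3 :=
  S.smooth_sum _ _ fun i => S.smooth_sum _ _ fun l =>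
    S.smooth_mul _ _ (S.smooth_sff i l) (S.smooth_sff2 i l)

theorem sff4_le (x : M) : S.sff4 x ≤ S.sffSq x ^ 2 := by
  rw [sq, sff4, sffSq, Finset.sum_mul_sum]
  refine Finset.sum_le_sum fun i _ => Finset.sum_le_sum fun k _ => ?_
  have e : ∑ l, S.sff l k x ^ 2 = ∑ l, S.sff k l x ^ 2 :=
    Finset.sum_congr rfl fun l _ => by rw [S.sff_comm l k]
  rw [← e]
  exact Finset.sum_mul_sq_le_sq_mul_sq Finset.univ _ _

theorem sff3_sq_le (x : M) : S.sff3 x ^ 2 ≤ S.sffSq x ^ 3 := by
  have h : S.sff3 x ^ 2 ≤ S.sffSq x * S.sff4 x := by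
    unfold sff3 sffSq sff4
    simp only [← Finset.sum_product']
    exact Finset.sum_mul_sq_le_sq_mul_sq _ _ _
  have a0 : 0 ≤ S.sffSq x :=
    Finset.sum_nonneg fun i _ => Finset.sum_nonneg fun j _ => sq_nonneg _
  refine h.trans ((mul_le_mul_of_nonneg_left (S.sff4_le x) a0).trans_eq ?_)
  ring

/-- The divergence of `B²`, by the Codazzi equation. -/
theorem div_sff2 (l : Fin (m + 2)) (x : M) :
    ∑ i, S.D i (S.sff2 i l) x
      = S.D l S.sffSq x / 2 - S.pos x l * S.sffSq x - S.nrm x l * S.sff3 x := by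
  have e : ∀ i, S.D i (S.sff2 i l) x
      = (∑ j, S.D i (S.sff i j) x * S.sff j l x) + ∑ j, S.sff i j x * S.D i (S.sff j l) x := by
    intro i
    unfold sff2
    rw [S.D_sum i _ _ fun j => S.smooth_mul _ _ (S.smooth_sff i j) (S.smooth_sff j l),
      ← Finset.sum_add_distrib]
    exact Finset.sum_congr rfl fun j _ => S.D_mul i _ _ (S.smooth_sff i j) (S.smooth_sff j l) x
  have h1 : ∑ i, ∑ j, S.D i (S.sff i j) x * S.sff j l x = 0 := by
    rw [Finset.sum_comm]
    simp only [← Finset.sum_mul]
    have : ∀ j, ∑ i, S.D i (S.sff i j) x = -S.sffSq x * S.nrm x j := fun j => S.lap_nrmC j x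
    simp only [this, mul_assoc, ← Finset.mul_sum, S.nrm_sff, mul_zero]
  have h2 : ∀ i j, S.D i (S.sff j l) x = S.D l (S.sff i j) x - S.pos x l * S.sff i j x
      + S.pos x i * S.sff l j x - S.nrm x l * S.sff2 i j x + S.nrm x i * S.sff2 l j x :=
    fun i j => by
      rw [S.sff_comm' j l]
      exact S.comm_formula i l (S.smooth_nrm j) x
  have h3 : ∑ i, ∑ j, S.sff i j x * S.D l (S.sff i j) x = S.D l S.sffSq x / 2 := by
    have e2 : S.sffSq = fun y => ∑ i, ∑ j, S.sff i j y * S.sff i j y :=
      funext fun y => by simp only [sffSq, sq]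
    rw [e2, S.D_sum l _ (fun i y => ∑ j, S.sff i j y * S.sff i j y)
      fun i => S.smooth_sum _ _ fun j => S.smooth_mul _ _ (S.smooth_sff i j) (S.smooth_sff i j),
      Finset.sum_div]
    refine Finset.sum_congr rfl fun i _ => ?_
    rw [S.D_sum l _ (fun j y => S.sff i j y * S.sff i j y)
      fun j => S.smooth_mul _ _ (S.smooth_sff i j) (S.smooth_sff i j), Finset.sum_div]
    refine Finset.sum_congr rfl fun j _ => ?_
    rw [S.D_mul l _ _ (S.smooth_sff i j) (S.smooth_sff i j)]
    ring
  have h4 : ∑ i, ∑ j, S.sff i j x * (S.pos x i * S.sff l j x) = 0 := by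
    rw [Finset.sum_comm]
    refine Finset.sum_eq_zero fun j _ => ?_
    simp only [← mul_assoc, ← Finset.sum_mul, mul_comm (S.sff _ j x) (S.pos x _), S.pos_sff,
      zero_mul]
  have h5 : ∑ i, ∑ j, S.sff i j x * (S.nrm x i * S.sff2 l j x) = 0 := by
    rw [Finset.sum_comm]
    refine Finset.sum_eq_zero fun j _ => ?_
    simp only [← mul_assoc, ← Finset.sum_mul, mul_comm (S.sff _ j x) (S.nrm x _), S.nrm_sff,
      zero_mul]
  simp only [e, Finset.sum_add_distrib, h1, zero_add, h2, mul_add, mul_sub,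
    Finset.sum_sub_distrib, h3, h4, h5, add_zero, sub_add_eq_add_sub]
  simp only [mul_left_comm (S.sff _ _ x) (S.pos x l), mul_left_comm (S.sff _ _ x) (S.nrm x l),
    ← Finset.mul_sum, sff3, sffSq, sq]

variable [CompactSpace M] [BorelSpace M] (p : Fin (m + 2) → ℝ)

/-- The moment identity. -/
theorem moment_identity {ν : ℝ} (hν : ν ≠ 0) :
    ν * S.pairing p (S.gdot (S.nrmL p) (S.nrmL p)) ν
      = S.pairing p (fun x => S.sffSq x * S.posL p x) ν
        + S.pairing p (fun x => S.nrmL p x * S.sff3 x) ν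
        + S.pairing p (S.lap S.sffSq) ν / (2 * ν) := by
  have hΦ : ContDiff ℝ ∞ fun y : ℝ => Real.exp (ν * y) :=
    Real.contDiff_exp.comp (contDiff_const.mul contDiff_id)
  have he := S.smooth_comp _ _ (S.smooth_posL p) hΦ
  have de : ∀ y, deriv (fun y : ℝ => Real.exp (ν * y)) y = ν * Real.exp (ν * y) := fun y =>
    ((((hasDerivAt_id' y).const_mul ν).exp).congr_deriv (by ring)).deriv
  have sw : ∀ i, S.Smooth fun y => ∑ l, S.sff2 i l y * p l := fun i =>
    S.smooth_sum _ _ fun l => S.smooth_mul _ _ (S.smooth_sff2 i l) (S.smooth_const _)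
  have sV : ∀ i, S.Smooth fun y => (∑ l, S.sff2 i l y * p l) * Real.exp (ν * S.posL p y) :=
    fun i => S.smooth_mul _ _ (sw i) he
  have hdiv : ∀ x, ∑ i, S.D i (fun y => (∑ l, S.sff2 i l y * p l) * Real.exp (ν * S.posL p y)) x
      = ((∑ l, p l * S.D l S.sffSq x) / 2 - S.sffSq x * S.posL p x - S.nrmL p x * S.sff3 x)
          * Real.exp (ν * S.posL p x)
        + ν * (S.gdot (S.nrmL p) (S.nrmL p) x * Real.exp (ν * S.posL p x)) := fun x => by
    have e1 : ∑ i, S.D i (fun y => ∑ l, S.sff2 i l y * p l) x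
        = (∑ l, p l * S.D l S.sffSq x) / 2 - S.sffSq x * S.posL p x - S.nrmL p x * S.sff3 x := by
      simp only [S.D_sum _ _ (fun l y => S.sff2 _ l y * p l)
          (fun l => S.smooth_mul _ _ (S.smooth_sff2 _ l) (S.smooth_const _)),
        S.D_mul _ _ _ (S.smooth_sff2 _ _) (S.smooth_const _), S.D_const, mul_zero, add_zero]
      rw [Finset.sum_comm]
      simp only [← Finset.sum_mul, S.div_sff2, sub_mul, Finset.sum_sub_distrib, posL, nrmL,
        Finset.mul_sum, Finset.sum_div]
      simp only [Finset.sum_mul]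
      congr 1
      · congr 1 <;> exact Finset.sum_congr rfl fun l _ => by ring
      · exact Finset.sum_congr rfl fun l _ => by ring
    have e2 : ∑ i, (∑ l, S.sff2 i l x * p l) * S.D i (S.posL p) x
        = S.gdot (S.nrmL p) (S.nrmL p) x := by
      have z1 : ∑ i, S.pos x i * ∑ l, S.sff2 i l x * p l = 0 := by
        simp only [Finset.mul_sum, ← mul_assoc]
        rw [Finset.sum_comm]
        simp only [← Finset.sum_mul, S.pos_sff2, zero_mul, Finset.sum_const_zero]
      have z2 : ∑ i, S.nrm x i * ∑ l, S.sff2 i l x * p l = 0 := by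
        simp only [Finset.mul_sum, ← mul_assoc]
        rw [Finset.sum_comm]
        simp only [← Finset.sum_mul, S.nrm_sff2, zero_mul, Finset.sum_const_zero]
      have e3 : ∀ i, (∑ l, S.sff2 i l x * p l) * S.D i (S.posL p) x
          = p i * (∑ l, S.sff2 i l x * p l)
            - S.posL p x * (S.pos x i * ∑ l, S.sff2 i l x * p l)
            - S.nrmL p x * (S.nrm x i * ∑ l, S.sff2 i l x * p l) := fun i => by
        rw [S.D_posL, S.sum_proj_mul]; simp only [posL, nrmL]; ring
      rw [Finset.sum_congr rfl fun i _ => e3 i]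
      simp only [Finset.sum_sub_distrib, ← Finset.mul_sum, z1, z2, mul_zero, sub_zero]
      simp only [gdot, D_nrmL, sff2, Finset.mul_sum, Finset.sum_mul]
      refine (Finset.sum_congr rfl fun i _ => Finset.sum_comm).trans ?_
      rw [Finset.sum_comm]
      refine Finset.sum_congr rfl fun j _ => Finset.sum_congr rfl fun b _ =>
        Finset.sum_congr rfl fun a _ => ?_
      rw [S.sff_comm b j]
      ring
    simp only [S.D_mul _ _ _ (sw _) he, S.D_comp _ _ _ (S.smooth_posL p) hΦ, de,
      Finset.sum_add_distrib]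
    rw [← Finset.sum_mul, e1, ← e2]
    simp only [Finset.sum_mul, Finset.mul_sum]
    congr 1
    exact Finset.sum_congr rfl fun i _ => Finset.sum_congr rfl fun l _ => by ring
  have cV : ∀ i, Integrable (S.D i fun y =>
      (∑ l, S.sff2 i l y * p l) * Real.exp (ν * S.posL p y)) S.vol :=
    fun i => S.integrable_of_smooth (S.cont (S.smooth_D i _ (sV i)))
  have cP : ∀ i, Integrable (fun x =>
      S.pos x i * ((∑ l, S.sff2 i l x * p l) * Real.exp (ν * S.posL p x))) S.vol :=
    fun i => S.integrable_of_smooth (S.cont (S.smooth_mul _ _ (S.smooth_pos i) (sV i)))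
  have hz : ∑ i, ∫ x, S.D i (fun y => (∑ l, S.sff2 i l y * p l) * Real.exp (ν * S.posL p y)) x
      ∂S.vol = 0 := by
    simp only [fun i => S.divergence i _ (sV i), ← Finset.mul_sum]
    rw [← integral_finsetSum _ fun i _ => cP i]
    have : ∀ x, ∑ i, S.pos x i * ((∑ l, S.sff2 i l x * p l) * Real.exp (ν * S.posL p x)) = 0 := by
      intro x
      simp only [← mul_assoc, Finset.mul_sum, ← Finset.sum_mul]
      rw [Finset.sum_comm]
      simp only [← Finset.sum_mul, S.pos_sff2, zero_mul, Finset.sum_const_zero]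
    simp only [this, integral_zero, mul_zero]
  rw [← integral_finsetSum _ fun i _ => cV i] at hz
  simp only [hdiv] at hz
  have sa := S.smooth_sffSq
  have hg := S.green he sa
  have hgs : ∀ x, S.gdot (fun y => Real.exp (ν * S.posL p y)) S.sffSq x
      = ν * ((∑ l, p l * S.D l S.sffSq x) * Real.exp (ν * S.posL p x)) := fun x => by
    rw [S.gdot_comp_left (fun y => Real.exp (ν * y)) (S.smooth_posL p) hΦ, de]
    have z : ∀ i, S.D i (S.posL p) x * S.D i S.sffSq x = p i * S.D i S.sffSq x
        - S.posL p x * (S.pos x i * S.D i S.sffSq x)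
        - S.nrmL p x * (S.nrm x i * S.D i S.sffSq x) := fun i => by
      rw [S.D_posL, S.sum_proj_mul]; simp only [posL, nrmL]; ring
    simp only [gdot, z, Finset.sum_sub_distrib, ← Finset.mul_sum, S.pos_D _ sa, S.nrm_D _ sa,
      mul_zero, sub_zero]
    ring
  simp only [hgs, integral_const_mul, mul_comm (Real.exp _) (S.lap S.sffSq _)] at hg
  have cs := S.cont_posL p
  have ca := S.cont sa
  have c3 := S.cont S.smooth_sff3
  have cf := S.cont (S.smooth_nrmL p)
  have cg : Continuous (S.gdot (S.nrmL p) (S.nrmL p)) := S.cont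
    (S.smooth_sum _ _ fun i => S.smooth_mul _ _ (S.smooth_D i _ (S.smooth_nrmL p))
      (S.smooth_D i _ (S.smooth_nrmL p)))
  have cd : Continuous fun x => ∑ l, p l * S.D l S.sffSq x := S.cont
    (S.smooth_sum _ _ fun l => S.smooth_mul _ _ (S.smooth_const _) (S.smooth_D l _ sa))
  have i1 := S.integrable_pairing p cd ν
  have i2 := S.integrable_pairing p (φ := fun x => S.sffSq x * S.posL p x) (ca.mul cs) ν
  have i3 := S.integrable_pairing p (φ := fun x => S.nrmL p x * S.sff3 x) (cf.mul c3) ν
  have i4 := S.integrable_pairing p cg ν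
  have e : ∀ x, ((∑ l, p l * S.D l S.sffSq x) / 2 - S.sffSq x * S.posL p x
        - S.nrmL p x * S.sff3 x) * Real.exp (ν * S.posL p x)
      + ν * (S.gdot (S.nrmL p) (S.nrmL p) x * Real.exp (ν * S.posL p x))
      = (1 / 2) * ((∑ l, p l * S.D l S.sffSq x) * Real.exp (ν * S.posL p x))
        - S.sffSq x * S.posL p x * Real.exp (ν * S.posL p x)
        - S.nrmL p x * S.sff3 x * Real.exp (ν * S.posL p x)
        + ν * (S.gdot (S.nrmL p) (S.nrmL p) x * Real.exp (ν * S.posL p x)) := fun x => by ring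
  simp only [e] at hz
  rw [integral_add (((i1.const_mul _).sub' i2).sub' i3) (i4.const_mul _),
    integral_sub ((i1.const_mul _).sub' i2) i3, integral_sub (i1.const_mul _) i2,
    integral_const_mul, integral_const_mul] at hz
  simp only [pairing] at *
  field_simp
  linear_combination (2 * ν) * hz - hg

end MinimalImmersion

end Vale.Agent.P224.Gap
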