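import Vale.Agent.P224.Gap.Kernel

/-!
# P224, large dimension: a comparison principle and sharp bounds on the equator weight
-/

namespace Vale.Agent.P224.Gap.Window

open MeasureTheory Filter Topology Set

/-- A function whose derivative is positive wherever it is negative stays nonnegative. -/
theorem no_crossing {F F' : ℝ → ℝ} {a : ℝ} (hd : ∀ x, a ≤ x → HasDerivAt F (F' x) x)
    (ha : 0 ≤ F a) (h : ∀ x, a < x → F x < 0 → 0 < F' x) {x : ℝ} (hx : a ≤ x) : 0 ≤ F x := by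
  by_contra hneg
  push Not at hneg
  obtain ⟨c, hc, hmin⟩ := isCompact_Icc.exists_isMinOn ⟨x, ⟨hx, le_rfl⟩⟩
    (fun y hy => (hd y hy.1).continuousAt.continuousWithinAt : ContinuousOn F (Icc a x))
  have hcx : F c ≤ F x := hmin ⟨hx, le_rfl⟩
  have hac : a < c := by
    rcases hc.1.eq_or_lt with h1 | h1
    · rw [← h1] at hcx; linarith
    · exact h1
  have hpos := h c hac (by linarith)
  have hslope := (hasDerivAt_iff_tendsto_slope.1 (hd c hc.1)).mono_left
    (nhdsWithin_mono c (show Iio c ⊆ {c}ᶜ from fun y hy => ne_of_lt hy))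
  have hev : ∀ᶠ y in 𝓝[<] c, slope F c y ≤ 0 := by
    filter_upwards [Ioo_mem_nhdsLT hac] with y hy
    rw [slope_def_field]
    exact div_nonpos_of_nonneg_of_nonpos (sub_nonneg.2 (hmin ⟨hy.1.le, hy.2.le.trans hc.2⟩))
      (by linarith [hy.2])
  exact absurd (le_of_tendsto hslope hev) (not_le.2 hpos)

/-- Strict comparison principle for `-X'' - b X' + p X` on a half line. -/
theorem comparison_strict {X X' X'' b p : ℝ → ℝ} {K l : ℝ}
    (h1 : ∀ x, K ≤ x → HasDerivAt X (X' x) x) (h2 : ∀ x, K ≤ x → HasDerivAt X' (X'' x) x)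
    (hK : 0 ≤ X K) (hl : 0 ≤ l) (hlim : Tendsto X atTop (𝓝 l)) (hp : ∀ x, K < x → 0 ≤ p x)
    (hop : ∀ x, K < x → 0 < -X'' x - b x * X' x + p x * X x) {x : ℝ} (hx : K ≤ x) : 0 ≤ X x := by
  by_contra hneg
  push Not at hneg
  obtain ⟨R, hR, hRx⟩ : ∃ R, X x < X R ∧ x < R :=
    ((hlim.eventually (lt_mem_nhds (lt_of_lt_of_le hneg hl))).and (eventually_gt_atTop x)).exists
  obtain ⟨c, hc, hmin⟩ := isCompact_Icc.exists_isMinOn ⟨x, ⟨hx, hRx.le⟩⟩
    (fun y hy => (h1 y hy.1).continuousAt.continuousWithinAt : ContinuousOn X (Icc K R))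
  have hcx : X c ≤ X x := hmin ⟨hx, hRx.le⟩
  have hKc : K < c := by
    rcases hc.1.eq_or_lt with h | h
    · rw [← h] at hcx; linarith
    · exact h
  have hcR : c < R := by
    rcases hc.2.eq_or_lt with h | h
    · rw [h] at hcx; linarith
    · exact h
  have hXc : X' c = 0 :=
    IsLocalMin.hasDerivAt_eq_zero
      (Filter.eventually_of_mem (Icc_mem_nhds hKc hcR) fun y hy => hmin hy) (h1 c hKc.le)
  have hX2 : X'' c < 0 := by
    have := hop c hKc
    rw [hXc] at this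
    nlinarith [mul_nonpos_of_nonneg_of_nonpos (hp c hKc) (le_of_lt (lt_of_le_of_lt hcx hneg))]
  have hslope := (hasDerivAt_iff_tendsto_slope.1 (h2 c hKc.le)).mono_left
    (nhdsWithin_mono c (show Ioi c ⊆ {c}ᶜ from fun y hy => ne_of_gt hy))
  have hev : ∀ᶠ y in 𝓝[>] c, X' y < 0 ∧ y < R := by
    filter_upwards [hslope.eventually (gt_mem_nhds hX2), Ioo_mem_nhdsGT hcR] with y hy hy2
    rw [slope_def_field, hXc, sub_zero, div_neg_iff] at hy
    rcases hy with ⟨-, h⟩ | ⟨h, -⟩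
    · exact absurd hy2.1 (by linarith)
    · exact ⟨h, hy2.2⟩
  obtain ⟨u, hu, hsub⟩ := mem_nhdsGT_iff_exists_Ioo_subset.1 hev
  set y := (c + u) / 2
  have hy : y ∈ Ioo c u := ⟨by simp only [y]; linarith [hu.out], by simp only [y]; linarith [hu.out]⟩
  have hyR := (hsub hy).2
  obtain ⟨d, hd, hde⟩ := exists_hasDerivAt_eq_slope X X' hy.1
    (fun z hz => (h1 z (hKc.le.trans hz.1)).continuousAt.continuousWithinAt)
    (fun z hz => h1 z (hKc.le.trans hz.1.le))
  have hneg' : X' d < 0 := (hsub ⟨hd.1, hd.2.trans hy.2⟩).1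
  rw [hde, div_neg_iff] at hneg'
  rcases hneg' with ⟨-, h⟩ | ⟨h, -⟩
  · linarith [hy.1]
  · linarith [show X c ≤ X y from hmin ⟨hKc.le.trans hy.1.le, hyR.le⟩]

/-- The comparison principle, with a weak inequality, when `b > 1`. -/
theorem comparison {X X' X'' b p : ℝ → ℝ} {K l : ℝ}
    (h1 : ∀ x, K ≤ x → HasDerivAt X (X' x) x) (h2 : ∀ x, K ≤ x → HasDerivAt X' (X'' x) x)
    (hK : 0 ≤ X K) (hl : 0 ≤ l) (hlim : Tendsto X atTop (𝓝 l)) (hp : ∀ x, K < x → 0 ≤ p x)
    (hb : ∀ x, K < x → 1 < b x)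
    (hop : ∀ x, K < x → 0 ≤ -X'' x - b x * X' x + p x * X x) {x : ℝ} (hx : K ≤ x) : 0 ≤ X x := by
  have hg : ∀ y, HasDerivAt (fun y => Real.exp (-(y - K))) (-Real.exp (-(y - K))) y := fun y => by
    simpa using ((hasDerivAt_id y).sub_const K).neg.exp
  have hgt : Tendsto (fun y => Real.exp (-(y - K))) atTop (𝓝 0) :=
    Real.tendsto_exp_neg_atTop_nhds_zero.comp (tendsto_atTop_add_const_right _ _ tendsto_id)
  refine le_of_forall_pos_le_add fun ε hε => ?_
  have h := comparison_strict (X := fun y => X y + ε * Real.exp (-(y - K)))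
    (X' := fun y => X' y + ε * -Real.exp (-(y - K)))
    (X'' := fun y => X'' y + ε * Real.exp (-(y - K))) (b := b) (p := p) (K := K) (l := l)
    (fun y hy => (h1 y hy).fun_add ((hg y).const_mul ε))
    (fun y hy => (h2 y hy).fun_add (((hg y).fun_neg.congr_deriv (neg_neg _)).const_mul ε))
    (by positivity) hl (by simpa using hlim.add (hgt.const_mul ε)) hp
    (fun y hy => by
      have e : -(X'' y + ε * Real.exp (-(y - K))) - b y * (X' y + ε * -Real.exp (-(y - K)))
          + p y * (X y + ε * Real.exp (-(y - K))) = (-X'' y - b y * X' y + p y * X y)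
          + ε * Real.exp (-(y - K)) * (b y - 1 + p y) := by ring
      rw [e]
      have : 0 < ε * Real.exp (-(y - K)) * (b y - 1 + p y) :=
        mul_pos (mul_pos hε (Real.exp_pos _)) (by linarith [hb y hy, hp y hy])
      linarith [hop y hy]) hx
  have h' : Real.exp (-(x - K)) ≤ 1 := Real.exp_le_one_iff.2 (by linarith)
  nlinarith [mul_le_mul_of_nonneg_left h' hε.le]

/-- The derivative of the equator integral. -/
noncomputable def equatorDeriv (m : ℕ) (ν : ℝ) : ℝ := sphereArea (m - 1) * moment (m - 1) 1 ν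

theorem hasDerivAt_equatorDeriv {m : ℕ} (hm : 1 ≤ m) {ν : ℝ} (hν : 0 < ν) :
    HasDerivAt (equatorDeriv m) (equatorIntegral m ν - m / ν * equatorDeriv m ν) ν := by
  obtain ⟨k, rfl⟩ : ∃ k, m = k + 1 := ⟨m - 1, by omega⟩
  refine ((moment_hasDerivAt k 1 ν).const_mul (sphereArea k)).congr_deriv ?_
  have h := moment_ode k ν
  rw [equatorIntegral_eq, equatorDeriv]
  simp only [Nat.add_sub_cancel, one_add_one_eq_two]
  push_cast
  field_simp
  linear_combination sphereArea k * h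

theorem equatorDeriv_nonneg (m : ℕ) {ν : ℝ} (hν : 0 ≤ ν) : 0 ≤ equatorDeriv m ν :=
  mul_nonneg (sphereArea_pos _).le (moment_one_nonneg _ hν)

theorem equatorDeriv_le (m : ℕ) (ν : ℝ) : equatorDeriv m ν ≤ equatorIntegral m ν := by
  rw [equatorIntegral_eq]
  exact mul_le_mul_of_nonneg_left (moment_one_le_zero _ ν) (sphereArea_pos _).le

/-- Half the logarithmic derivative of the weight. -/
noncomputable def rate (m : ℕ) (ν : ℝ) : ℝ :=
  equatorDeriv m ν / equatorIntegral m ν + m / ν / 2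

theorem one_le_rate {m : ℕ} (hm : 2 ≤ m) {ν : ℝ} (hν : 0 < ν) : 1 ≤ rate m ν := by
  have hm' : (2 : ℝ) ≤ m := by exact_mod_cast hm
  set Z := equatorIntegral m
  set W := equatorDeriv m
  have hZ : ∀ x, 0 < Z x := equatorIntegral_pos m
  suffices h : 0 ≤ W ν + ((m : ℝ) / ν / 2 - 1) * Z ν by
    rw [rate, div_add' _ _ _ (hZ ν).ne', le_div_iff₀ (hZ ν)]
    linarith
  set a := min ν ((m : ℝ) / 4)
  have ha : 0 < a := lt_min hν (by positivity)
  refine no_crossing (F := fun x => W x + ((m : ℝ) / x / 2 - 1) * Z x)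
    (F' := fun x => Z x - m / x * W x + (-((m : ℝ) / x ^ 2) / 2) * Z x
      + ((m : ℝ) / x / 2 - 1) * W x) ?_ ?_ ?_ (min_le_left ν ((m : ℝ) / 4))
  · intro x hx
    have hx0 : 0 < x := ha.trans_le hx
    have h3 : HasDerivAt (fun y : ℝ => (m : ℝ) / y / 2 - 1) (-((m : ℝ) / x ^ 2) / 2) x := by
      have := (((hasDerivAt_inv hx0.ne').const_mul (m : ℝ)).div_const 2).sub_const 1
      simpa [div_eq_mul_inv] using this
    exact ((hasDerivAt_equatorDeriv (by omega) hx0).fun_add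
      (h3.fun_mul (equatorIntegral_hasDerivAt m x))).congr_deriv (by simp only [W, equatorDeriv]; ring)
  · have h1 : (2 : ℝ) ≤ (m : ℝ) / a / 2 := by
      rw [le_div_iff₀ two_pos, le_div_iff₀ ha]
      linarith [min_le_right ν ((m : ℝ) / 4)]
    have h2 : 0 ≤ ((m : ℝ) / a / 2 - 1) * Z a := mul_nonneg (by linarith) (hZ a).le
    have h3 : 0 ≤ W a := equatorDeriv_nonneg m ha.le
    linarith
  · intro x hx hneg
    have hx0 : 0 < x := ha.trans hx
    have e : Z x - m / x * W x + (-((m : ℝ) / x ^ 2) / 2) * Z x + ((m : ℝ) / x / 2 - 1) * W x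
        = Z x * ((m : ℝ) * (m - 2) / (4 * x ^ 2))
          - (1 + (m : ℝ) / x / 2) * (W x + ((m : ℝ) / x / 2 - 1) * Z x) := by field_simp; ring
    rw [e]
    have h1 : 0 ≤ Z x * ((m : ℝ) * (m - 2) / (4 * x ^ 2)) :=
      mul_nonneg (hZ x).le (div_nonneg (mul_nonneg (by linarith) (by linarith)) (by positivity))
    have h2 : (1 + (m : ℝ) / x / 2) * (W x + ((m : ℝ) / x / 2 - 1) * Z x) < 0 :=
      mul_neg_of_pos_of_neg (by positivity) hneg
    linarith

theorem rate_le {m : ℕ} (hm : 2 ≤ m) {ν : ℝ} (hν : 0 < ν) :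
    rate m ν ≤ 1 + ((m : ℝ) / ν) ^ 2 / 8 := by
  have hm' : (2 : ℝ) ≤ m := by exact_mod_cast hm
  set Z := equatorIntegral m
  set W := equatorDeriv m
  have hZ : ∀ x, 0 < Z x := equatorIntegral_pos m
  suffices h : 0 ≤ (1 + ((m : ℝ) / ν) ^ 2 / 8 - (m : ℝ) / ν / 2) * Z ν - W ν by
    rw [rate, div_add' _ _ _ (hZ ν).ne', div_le_iff₀ (hZ ν)]
    linarith
  set a := min ν ((m : ℝ) / 4)
  have ha : 0 < a := lt_min hν (by positivity)
  set B : ℝ → ℝ := fun x => 1 + ((m : ℝ) / x) ^ 2 / 8 - (m : ℝ) / x / 2 with hB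
  refine no_crossing (F := fun x => B x * Z x - W x)
    (F' := fun x => (-((m : ℝ) ^ 2 / (4 * x ^ 3)) + (m : ℝ) / x ^ 2 / 2) * Z x + B x * W x
      - (Z x - m / x * W x)) ?_ ?_ ?_ (min_le_left ν ((m : ℝ) / 4))
  · intro x hx
    have hx0 : 0 < x := ha.trans_le hx
    have h0 := (hasDerivAt_inv hx0.ne').const_mul (m : ℝ)
    have h3 : HasDerivAt B (-((m : ℝ) ^ 2 / (4 * x ^ 3)) + (m : ℝ) / x ^ 2 / 2) x := by
      refine ((((h0.fun_pow 2).div_const 8).const_add 1).fun_sub (h0.div_const 2)).congr_deriv ?_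
      push_cast
      field_simp
      ring
    exact ((h3.fun_mul (equatorIntegral_hasDerivAt m x)).fun_sub
      (hasDerivAt_equatorDeriv (by omega) hx0)).congr_deriv (by simp only [W, equatorDeriv]; ring)
  · have h1 : (4 : ℝ) ≤ (m : ℝ) / a := by
      rw [le_div_iff₀ ha]
      linarith [min_le_right ν ((m : ℝ) / 4)]
    have h2 : 1 ≤ B a := by simp only [hB]; nlinarith
    have h3 : W a ≤ Z a := equatorDeriv_le m a
    nlinarith [mul_le_mul_of_nonneg_right h2 (hZ a).le]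
  · intro x hx hneg
    have hx0 : 0 < x := ha.trans hx
    have e : (-((m : ℝ) ^ 2 / (4 * x ^ 3)) + (m : ℝ) / x ^ 2 / 2) * Z x + B x * W x
          - (Z x - m / x * W x)
        = Z x * (((m : ℝ) / x) ^ 2 / m * (((m : ℝ) / x) ^ 2 * m / 64 - (m : ℝ) / x / 4 + 1 / 2))
          - (B x + (m : ℝ) / x) * (B x * Z x - W x) := by
      simp only [hB]; field_simp; ring
    rw [e]
    have hq : 0 ≤ ((m : ℝ) / x) ^ 2 * m / 64 - (m : ℝ) / x / 4 + 1 / 2 := by
      nlinarith [sq_nonneg ((m : ℝ) / x / 8 * 2 - 1), mul_le_mul_of_nonneg_left hm'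
        (sq_nonneg ((m : ℝ) / x))]
    have hBpos : 0 < B x + (m : ℝ) / x := by
      have : 0 < (m : ℝ) / x := by positivity
      simp only [hB]; nlinarith
    have h1 : 0 ≤ Z x * (((m : ℝ) / x) ^ 2 / m
        * (((m : ℝ) / x) ^ 2 * m / 64 - (m : ℝ) / x / 4 + 1 / 2)) :=
      mul_nonneg (hZ x).le (mul_nonneg (by positivity) hq)
    linarith [mul_neg_of_pos_of_neg hBpos hneg]

theorem hasDerivAt_weight {m : ℕ} (hm : 1 ≤ m) {ν : ℝ} (hν : 0 < ν) :
    HasDerivAt (weight m) (2 * rate m ν * weight m ν) ν := by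
  have h : HasDerivAt (equatorIntegral m) (equatorDeriv m ν) ν := equatorIntegral_hasDerivAt m ν
  refine ((hasDerivAt_pow m ν).fun_mul (h.fun_pow 2)).congr_deriv ?_
  have hp : ν ^ m = ν ^ (m - 1) * ν := by rw [← pow_succ]; congr 1; omega
  have hne := (equatorIntegral_pos m ν).ne'
  simp only [rate, weight]
  rw [hp]
  field_simp
  push_cast
  ring

end Vale.Agent.P224.Gap.Window
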