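import Vale.Agent.P224.Window.Moment
import Vale.Agent.P224.Window.Ode
import Vale.Agent.P224.Gap.TestFun

/-!
# P224, large dimension: second order inequalities for the profiles of `|A|²` and of the defect
-/

namespace Vale.Agent.P224.Gap

open MeasureTheory Filter Topology
open scoped ContDiff

namespace MinimalImmersion

variable {m : ℕ} {M : Type} [TopologicalSpace M] [MeasurableSpace M] [CompactSpace M] [BorelSpace M]
  (S : MinimalImmersion m M) (p : Fin (m + 2) → ℝ)

/-- The value of the second order operator on a profile. -/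
noncomputable def opVal (φ : M → ℝ) (ν : ℝ) : ℝ := S.source p φ ν / weight m ν

omit [CompactSpace M] [BorelSpace M] in
theorem opVal_eq (hm : 2 ≤ m) (φ : M → ℝ) {ν : ℝ} (hν : 0 < ν) :
    S.opVal p φ ν = S.profile p (S.withDefect p φ) ν + S.profile p (S.lap φ) ν / ν ^ 2 := by
  obtain ⟨n, rfl⟩ : ∃ n, m = n + 2 := ⟨m - 2, by omega⟩
  have hZ := (equatorIntegral_pos (n + 2) ν).ne'
  simp only [opVal, source, weight, profile, Nat.add_sub_cancel]
  field_simp
  ring

theorem drop_hasDerivAt (hm : 2 ≤ m) {φ : M → ℝ} (hφ : S.Smooth φ) {ν : ℝ} (hν : 0 < ν) :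
    HasDerivAt (S.drop p φ) (S.opVal p φ ν - 2 * Window.rate m ν * S.drop p φ ν) ν := by
  have hc := S.source_continuous p hφ
  have h1 := (hc.integral_hasStrictDerivAt 0 ν).hasDerivAt
  refine (h1.fun_div (Window.hasDerivAt_weight (by omega) hν) (weight_pos m hν).ne').congr_deriv ?_
  have hw := (weight_pos m hν).ne'
  simp only [opVal, drop]
  field_simp

variable (hp : ∑ i, p i * p i = 1)
include hp

theorem pairing_posL (hm : 2 ≤ m) {φ : M → ℝ} (hφ : S.Smooth φ) {ν : ℝ} (hν : 0 < ν) :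
    S.profile p (fun x => φ x * S.posL p x) ν
      = -S.drop p φ ν + Window.equatorDeriv m ν / equatorIntegral m ν * S.profile p φ ν := by
  have h1 := (S.wronskian p hp hφ hm hν).fun_mul (equatorIntegral_hasDerivAt m ν)
  have e : (fun y => S.profile p φ y * equatorIntegral m y) = S.pairing p φ := funext fun y => by
    simp only [profile]
    exact div_mul_cancel₀ _ (equatorIntegral_pos m y).ne'
  rw [e] at h1
  have h2 := h1.unique (S.pairing_hasDerivAt p (S.cont hφ) ν)
  have hZ := (equatorIntegral_pos m ν).ne'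
  simp only [profile, Window.equatorDeriv] at *
  rw [← h2]
  field_simp

omit hp

theorem profile_nonneg {φ : M → ℝ} (h : ∀ x, 0 ≤ φ x) (ν : ℝ) : 0 ≤ S.profile p φ ν :=
  div_nonneg (S.pairing_nonneg p h ν) (equatorIntegral_pos m ν).le

theorem profile_mono {φ ψ : M → ℝ} (hφ : Continuous φ) (hψ : Continuous ψ) (h : ∀ x, φ x ≤ ψ x)
    (ν : ℝ) : S.profile p φ ν ≤ S.profile p ψ ν :=
  div_le_div_of_nonneg_right (S.pairing_mono p hφ hψ h ν) (equatorIntegral_pos m ν).le

theorem profile_add {φ ψ : M → ℝ} (hφ : Continuous φ) (hψ : Continuous ψ) (ν : ℝ) :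
    S.profile p (fun x => φ x + ψ x) ν = S.profile p φ ν + S.profile p ψ ν := by
  simp only [profile, S.pairing_add p hφ hψ, add_div]

theorem profile_smul (c : ℝ) (φ : M → ℝ) (ν : ℝ) :
    S.profile p (fun x => c * φ x) ν = c * S.profile p φ ν := by
  simp only [profile, S.pairing_smul p c, mul_div_assoc]

theorem opVal_one (hm : 2 ≤ m) {ν : ℝ} (hν : 0 < ν) :
    S.opVal p (fun _ => 1) ν = S.profile p (fun x => S.nrmL p x ^ 2) ν := by
  rw [S.opVal_eq p hm _ hν]
  have : S.withDefect p (fun _ => (1 : ℝ)) = fun x => S.nrmL p x ^ 2 := funext fun x => one_mul _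
  simp [this, profile, pairing, S.lap_const]

theorem opVal_sff (hm : 2 ≤ m) {L : ℝ} (hmax : ∀ x, S.sffSq x ≤ L) {ν : ℝ} (hν : 0 < ν) :
    0 ≤ S.opVal p S.sffSq ν + 2 * (L - m) / ν ^ 2 * S.profile p S.sffSq ν := by
  rw [S.opVal_eq p hm _ hν]
  have sa := S.smooth_sffSq
  have h0 : 0 ≤ S.profile p (S.withDefect p S.sffSq) ν :=
    S.profile_nonneg p (fun x => mul_nonneg (S.sffSq_nonneg x) (sq_nonneg _)) ν
  have h1 : -(2 * (L - m)) * S.profile p S.sffSq ν ≤ S.profile p (S.lap S.sffSq) ν := by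
    rw [← S.profile_smul p]
    refine S.profile_mono p (S.cont (S.smooth_smul _ sa)) (S.cont (S.smooth_lap sa)) (fun x => ?_) ν
    refine le_trans ?_ (S.simons x)
    nlinarith [mul_nonneg (S.sffSq_nonneg x) (sub_nonneg.2 (hmax x))]
  have h2 := div_le_div_of_nonneg_right h1 (sq_nonneg ν)
  rw [mul_div_right_comm, neg_div] at h2
  linarith

include hp

omit [CompactSpace M] [BorelSpace M] in
theorem posL_le_one (x : M) : S.posL p x ≤ 1 := by
  have := S.tangent_nonneg hp x
  nlinarith [sq_nonneg (S.nrmL p x), sq_nonneg (S.posL p x - 1)]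

/-- The second order inequality for the defect. -/
theorem opVal_defect (hm : 2 ≤ m) {L : ℝ} (hL : 0 ≤ L) (hmax : ∀ x, S.sffSq x ≤ L) {ν : ℝ}
    (hν : 0 < ν) :
    2 / ν ^ 3 * (S.profile p S.sffSq ν * (1 - (L - m) / ν - 7 / 25 * (L / ν))
        - L * ((1 - Window.equatorDeriv m ν / equatorIntegral m ν) * S.profile p (fun _ => 1) ν
          + S.drop p (fun _ => 1) ν))
      - 53 / 14 * L / ν ^ 2 * S.profile p (fun x => S.nrmL p x ^ 2) ν
    ≤ S.opVal p (fun x => S.nrmL p x ^ 2) ν := by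
  have sa := S.smooth_sffSq
  have sf := S.smooth_nrmL p
  have sg : S.Smooth (S.gdot (S.nrmL p) (S.nrmL p)) :=
    S.smooth_sum _ _ fun i => S.smooth_mul _ _ (S.smooth_D i _ sf) (S.smooth_D i _ sf)
  have ca := S.cont sa
  have cs := S.cont_posL p
  have cf2 : Continuous fun x => S.nrmL p x ^ 2 := S.cont (S.smooth_sq sf)
  set A := S.profile p S.sffSq ν
  set E := S.profile p (fun x => S.nrmL p x ^ 2) ν
  set T := S.profile p (fun _ => 1) ν
  set G := S.profile p (S.gdot (S.nrmL p) (S.nrmL p)) ν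
  set U := S.profile p (fun x => S.sffSq x * S.posL p x) ν with hU
  set C := S.profile p (fun x => S.nrmL p x * S.sff3 x) ν with hC
  set R := S.profile p (S.lap S.sffSq) ν with hR
  have hid : ν * G = U + C + R / (2 * ν) := by
    have h := congrArg (fun y => y / equatorIntegral m ν) (S.moment_identity p hν.ne')
    simp only [add_div, mul_div_assoc, div_right_comm _ (2 * ν)] at h
    exact h
  have hU' : A + -L * T + L * (-S.drop p (fun _ => 1) ν
      + Window.equatorDeriv m ν / equatorIntegral m ν * T) ≤ U := by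
    rw [← S.pairing_posL p hp hm (S.smooth_const 1) hν]
    simp only [A, T]
    have c1 : Continuous fun x => S.sffSq x + -L * 1 := by fun_prop
    rw [← S.profile_smul p, ← S.profile_smul p, ← S.profile_add p ca continuous_const,
      ← S.profile_add p c1 (by fun_prop)]
    refine S.profile_mono p (by fun_prop) (ca.mul cs) (fun x => ?_) ν
    simp only [Pi.mul_apply]
    nlinarith [mul_nonneg (sub_nonneg.2 (hmax x)) (sub_nonneg.2 (S.posL_le_one p hp x))]
  have hC' : -(7 / 25 * (L / ν)) * A + -(25 / 28 * (L * ν)) * E ≤ C := by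
    simp only [A, E]
    rw [← S.profile_smul p, ← S.profile_smul p,
      ← S.profile_add p (S.cont (S.smooth_smul _ sa)) (by fun_prop)]
    refine S.profile_mono p (by fun_prop) (S.cont (S.smooth_mul _ _ sf S.smooth_sff3))
      (fun x => ?_) ν
    set b := 7 / 25 * (L / ν) * S.sffSq x + 25 / 28 * (L * ν) * S.nrmL p x ^ 2
    have hb : 0 ≤ b := by
      have := S.sffSq_nonneg x
      positivity
    have h1 : (S.nrmL p x * S.sff3 x) ^ 2 ≤ b ^ 2 := by
      have h2 : (S.nrmL p x * S.sff3 x) ^ 2 ≤ S.nrmL p x ^ 2 * (L ^ 2 * S.sffSq x) := by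
        rw [mul_pow]
        refine mul_le_mul_of_nonneg_left ((S.sff3_sq_le x).trans ?_) (sq_nonneg _)
        have := mul_le_mul_of_nonneg_right (pow_le_pow_left₀ (S.sffSq_nonneg x) (hmax x) 2)
          (S.sffSq_nonneg x)
        nlinarith
      refine h2.trans ?_
      have e : b ^ 2 = (7 / 25 * (L / ν) * S.sffSq x - 25 / 28 * (L * ν) * S.nrmL p x ^ 2) ^ 2
          + S.nrmL p x ^ 2 * (L ^ 2 * S.sffSq x) := by
        simp only [b]; field_simp; ring
      rw [e]
      exact le_add_of_nonneg_left (sq_nonneg _)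
    have := (abs_le_of_sq_le_sq' h1 hb).1
    simp only [b] at this ⊢
    linarith
  have hR' : -(2 * (L - m)) * A ≤ R := by
    simp only [A, R]
    rw [← S.profile_smul p]
    refine S.profile_mono p (S.cont (S.smooth_smul _ sa)) (S.cont (S.smooth_lap sa)) (fun x => ?_) ν
    refine le_trans ?_ (S.simons x)
    nlinarith [mul_nonneg (S.sffSq_nonneg x) (sub_nonneg.2 (hmax x))]
  have hlap : 2 * G + -(2 * L) * E ≤ S.profile p (S.lap fun x => S.nrmL p x ^ 2) ν := by
    simp only [G, E]
    rw [← S.profile_smul p, ← S.profile_smul p,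
      ← S.profile_add p (S.cont (S.smooth_smul _ sg)) (by fun_prop)]
    refine S.profile_mono p (S.cont (S.smooth_add _ _ (S.smooth_smul _ sg)
      (S.smooth_smul _ (S.smooth_sq sf)))) (S.cont (S.smooth_lap (S.smooth_sq sf))) (fun x => ?_) ν
    have e : (fun y => S.nrmL p y ^ 2) = fun y => S.nrmL p y * S.nrmL p y :=
      funext fun y => sq _
    rw [e, S.lap_mul sf sf, S.lap_nrmL]
    nlinarith [mul_le_mul_of_nonneg_right (hmax x) (sq_nonneg (S.nrmL p x))]
  rw [S.opVal_eq p hm _ hν]
  have hw : 0 ≤ S.profile p (S.withDefect p fun x => S.nrmL p x ^ 2) ν :=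
    S.profile_nonneg p (fun x => mul_nonneg (sq_nonneg _) (sq_nonneg _)) ν
  refine le_trans ?_ (add_le_add hw (div_le_div_of_nonneg_right hlap (sq_nonneg ν)))
  have hR2 : -(2 * (L - m)) * A / (2 * ν) ≤ R / (2 * ν) :=
    div_le_div_of_nonneg_right hR' (by positivity)
  have key : A * (1 - (L - m) / ν - 7 / 25 * (L / ν))
      - L * ((1 - Window.equatorDeriv m ν / equatorIntegral m ν) * T + S.drop p (fun _ => 1) ν)
      - 25 / 28 * (L * ν) * E ≤ ν * G := by
    rw [hid]
    have e : -(2 * (L - m)) * A / (2 * ν) = -((L - m) / ν * A) := by field_simp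
    rw [e] at hR2
    nlinarith
  have h3 := mul_le_mul_of_nonneg_left key (show 0 ≤ 2 / ν ^ 3 by positivity)
  have e : 0 + (2 * G + -(2 * L) * E) / ν ^ 2
      = 2 / ν ^ 3 * (ν * G) - 2 * L / ν ^ 2 * E := by field_simp; ring
  rw [e]
  have e2 : 2 / ν ^ 3 * (25 / 28 * (L * ν) * E) + 2 * L / ν ^ 2 * E = 53 / 14 * L / ν ^ 2 * E := by
    field_simp; ring
  rw [mul_sub] at h3
  linarith

end MinimalImmersion

end Vale.Agent.P224.Gap
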